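import Vale.Agent.P328.SDefs

/-!
# Randomized approximate counting of contingency tables: definitions
-/

namespace Vale.Agent.P328.SM

open Vale.Agent.P328.RM

variable {m n : ℕ}

/-- the input word of the counting algorithm: row sums and column sums in binary, and the
parameters `e` (relative error `1 / e`) and `d` (failure probability `2⁻ᵈ`) in unary -/
def countWord (r : Fin m → ℕ) (c : Fin n → ℕ) (e d : ℕ) : List Bool :=
  block (block (numbers (List.ofFn r)) (numbers (List.ofFn c)))
    (block (List.replicate e true) (List.replicate d true))

/-- the output word: the fraction `a / b`, numerator and denominator in binary -/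
def fracWord (a b : ℕ) : List Bool := block a.bits b.bits

/-- `f` is a fully polynomial randomized approximation scheme for the number of contingency
tables. It is computed in polynomial time from the input word and a word of `q` random bits, where
`q` is a polynomial in the length of the input word; for all dimensions and all margins, with
probability at least `1 - 2⁻ᵈ` its output is a fraction `a / b` within relative error `1 / e` of
the number of tables with these margins. -/
def IsFPRAS (f : List Bool → List Bool) (q : Polynomial ℕ) : Prop :=
  PolyTime f ∧ ∀ (m n : ℕ) (r : Fin m → ℕ) (c : Fin n → ℕ), 0 < m → 0 < n →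
    ∑ i, r i = ∑ j, c j → ∀ e d : ℕ, 0 < e →
      1 - (1 / 2) ^ d ≤ prob (q.eval (countWord r c e d).length) fun w =>
        ∃ a b : ℕ, 0 < b ∧ f (block (countWord r c e d) w) = fracWord a b ∧
          (1 - 1 / (e : ℝ)) * (Fintype.card (Omega r c) : ℝ) ≤ (a : ℝ) / b ∧
          (a : ℝ) / b ≤ (1 + 1 / (e : ℝ)) * (Fintype.card (Omega r c) : ℝ)

end Vale.Agent.P328.SM
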