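import Mathlib

/-!
# The `2 × 2` heat-bath chain on contingency tables: definitions
-/

namespace Vale.Agent.P328.RM

open Finset

variable {m n : ℕ}

/-- `X` is a contingency table with row sums `r` and column sums `c` -/
def IsTable (r : Fin m → ℕ) (c : Fin n → ℕ) (X : Fin m → Fin n → ℕ) : Prop :=
  (∀ i, ∑ j, X i j = r i) ∧ (∀ j, ∑ i, X i j = c j)

/-- the state space: all contingency tables with the given margins -/
def Omega (r : Fin m → ℕ) (c : Fin n → ℕ) : Type := {X : Fin m → Fin n → ℕ // IsTable r c X}

theorem finite_tables (r : Fin m → ℕ) (c : Fin n → ℕ) :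
    {X : Fin m → Fin n → ℕ | IsTable r c X}.Finite := by
  apply (Set.finite_Iic (fun (i : Fin m) (_ : Fin n) => r i)).subset
  intro X hX i j
  show X i j ≤ r i
  rw [← hX.1 i]
  exact Finset.single_le_sum (f := fun j => X i j) (fun _ _ => Nat.zero_le _) (Finset.mem_univ j)

noncomputable instance (r : Fin m → ℕ) (c : Fin n → ℕ) : Fintype (Omega r c) :=
  (finite_tables r c).fintype

noncomputable instance (r : Fin m → ℕ) (c : Fin n → ℕ) : DecidableEq (Omega r c) :=
  Classical.decEq _

/-- `X` and `Y` have the same entries outside the minor with rows `i, i'` and columns `j, k` -/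
def SameOff (i i' : Fin m) (j k : Fin n) (X Y : Fin m → Fin n → ℕ) : Prop :=
  ∀ a b, ¬ ((a = i ∨ a = i') ∧ (b = j ∨ b = k)) → X a b = Y a b

open scoped Classical in
/-- one step of the chain, as a transition matrix: rows `i, i'` and columns `j, k` are chosen
independently and uniformly; then the table is replaced by a uniformly random table with the same
margins and the same entries outside the minor -/
noncomputable def step (r : Fin m → ℕ) (c : Fin n → ℕ) : Matrix (Omega r c) (Omega r c) ℝ :=
  fun X Y => 1 / ((m : ℝ) ^ 2 * (n : ℝ) ^ 2) * ∑ i : Fin m, ∑ i' : Fin m, ∑ j : Fin n, ∑ k : Fin n,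
    if SameOff i i' j k X.1 Y.1 then
      1 / (Nat.card {Z : Omega r c // SameOff i i' j k X.1 Z.1} : ℝ) else 0

/-- total variation distance of two laws on a finite set -/
noncomputable def tv {A : Type} [Fintype A] (μ ν : A → ℝ) : ℝ := (1 / 2) * ∑ x, |μ x - ν x|

/-- `ρ` bounds the second largest eigenvalue of a symmetric stochastic matrix `K`: on functions
with mean zero the quadratic form of `K` lies between `0` and `ρ` times the square norm -/
def SecondEigLe {A : Type} [Fintype A] (K : Matrix A A ℝ) (ρ : ℝ) : Prop :=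
  ∀ F : A → ℝ, ∑ x, F x = 0 →
    0 ≤ ∑ x, ∑ y, F x * K x y * F y ∧ ∑ x, ∑ y, F x * K x y * F y ≤ ρ * ∑ x, F x ^ 2

end Vale.Agent.P328.RM
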