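import Vale.Agent.P328.RMDefs

/-!
# Almost-uniform samplers for contingency tables: definitions
-/

namespace Vale.Agent.P328.SM

open Vale.Agent.P328.RM

/-- self-delimiting pairing of binary words: every bit of `u` is preceded by `true`, then comes
`false`, then `v` -/
def block : List Bool → List Bool → List Bool
  | [], v => false :: v
  | b :: u, v => true :: b :: block u v

/-- binary code of a list of natural numbers (`Nat.bits` is the list of binary digits) -/
def numbers (l : List ℕ) : List Bool := l.foldr (fun x v => block x.bits v) []

variable {m n : ℕ}

/-- the input word: row sums and column sums in binary, accuracy parameter `k` in unary -/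
def inputWord (r : Fin m → ℕ) (c : Fin n → ℕ) (k : ℕ) : List Bool :=
  block (block (numbers (List.ofFn r)) (numbers (List.ofFn c))) (List.replicate k true)

/-- the output word of a table: the list of its rows -/
def tableWord (X : Fin m → Fin n → ℕ) : List Bool :=
  (List.ofFn fun i => numbers (List.ofFn (X i))).foldr block []

/-- `f` is computed in polynomial time by a Turing machine with finitely many symbols -/
def PolyTime (f : List Bool → List Bool) : Prop :=
  ∃ M : Turing.TM2ComputableInPolyTime (id : List Bool → List Bool) (id : List Bool → List Bool) f,
    ∀ k, Finite (M.tm.Γ k)

/-- the probability that a uniformly random word of `q` bits satisfies `P` -/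
noncomputable def prob (q : ℕ) (P : List Bool → Prop) : ℝ :=
  ({w : List Bool | w.length = q ∧ P w}.ncard : ℝ) / 2 ^ q

/-- the size of the margins written in binary (`Nat.size x` is the number of binary digits) -/
def inputSize (r : Fin m → ℕ) (c : Fin n → ℕ) : ℕ :=
  m + n + ∑ i, Nat.size (r i) + ∑ j, Nat.size (c j)

/-- `f` is a randomized algorithm for the almost-uniform generation of contingency tables. It is
computed in polynomial time from the input word and a word of `q` random bits, where `q` is a
polynomial in the length of the input word; for all dimensions and all margins its output is
always a table with these margins, and its law is within `2⁻ᵏ` of uniform in total variation. -/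
def IsSampler (f : List Bool → List Bool) (q : Polynomial ℕ) : Prop :=
  PolyTime f ∧ ∀ (m n : ℕ) (r : Fin m → ℕ) (c : Fin n → ℕ), 0 < m → 0 < n →
    ∑ i, r i = ∑ j, c j → ∀ k : ℕ,
      (∀ w : List Bool, w.length = q.eval (inputWord r c k).length →
        ∃ X, IsTable r c X ∧ f (block (inputWord r c k) w) = tableWord X) ∧
      tv (fun X : Omega r c => prob (q.eval (inputWord r c k).length) fun w =>
          f (block (inputWord r c k) w) = tableWord X.1)
        (fun _ => 1 / (Fintype.card (Omega r c) : ℝ)) ≤ (1 / 2) ^ k

end Vale.Agent.P328.SM
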